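import Mathlib

/-!
P205 shared definitions (owner helper91). FROZEN: do not edit; add your own defs in your folder.
-/

open scoped Manifold ContDiff Topology
open Set Filter Metric

noncomputable section

namespace Vale.Agent.P205

abbrev E2 : Type := EuclideanSpace ℝ (Fin 2)
abbrev E4 : Type := EuclideanSpace ℝ (Fin 4)
abbrev Bil : Type := E2 →L[ℝ] E2 →L[ℝ] ℝ
abbrev I2 : ModelWithCorners ℝ E2 E2 := 𝓘(ℝ, E2)

def ex : E2 := EuclideanSpace.single 0 1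
def ey : E2 := EuclideanSpace.single 1 1

/-- The square of the coordinate `x`: `dxx v w = v 0 * w 0`. -/
def dxx : Bil :=
  (ContinuousLinearMap.mul ℝ ℝ).bilinearComp (EuclideanSpace.proj 0) (EuclideanSpace.proj 0)

/-- The weight `exp (-1 / (1 - |z|^2))` on the unit disc, zero outside. -/
def wt (z : E2) : ℝ := expNegInvGlue (1 - ‖z‖ ^ 2)

/-- `A` is injective and `c` is not in its range. -/
def Ind (A : E2 →L[ℝ] E4) (c : E4) : Prop :=
  ∀ (ξ : E2) (t : ℝ), A ξ + t • c = 0 → ξ = 0 ∧ t = 0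

/-- Quantitative form of `Ind`. -/
def IndQ (κ : ℝ) (A : E2 →L[ℝ] E4) (c : E4) : Prop :=
  ∀ (ξ : E2) (t : ℝ), κ * (‖ξ‖ + |t|) ≤ ‖A ξ + t • c‖

/-- Second derivative in the direction `v`. -/
def D2 {V : Type} [NormedAddCommGroup V] [NormedSpace ℝ V] (F : E2 → V) (z v : E2) : V :=
  fderiv ℝ (fderiv ℝ F) z v v

section Mfd

variable {M : Type*} [TopologicalSpace M] [ChartedSpace E2 M]
variable {V : Type} [NormedAddCommGroup V]

abbrev Chart (M : Type*) [TopologicalSpace M] := OpenPartialHomeomorph M E2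

/-- Charts of the maximal smooth atlas. -/
def IsCh (φ : Chart M) : Prop := φ ∈ IsManifold.maximalAtlas I2 ∞ M

/-- Smooth maps to a normed space. -/
def Sm [NormedSpace ℝ V] (F : M → V) : Prop := ContMDiff I2 𝓘(ℝ, V) ∞ F

/-- The differential. -/
def dM [NormedSpace ℝ V] (F : M → V) (p : M) : E2 →L[ℝ] V := mfderiv I2 𝓘(ℝ, V) F p

/-- The differential of the inverse chart. -/
def dS (φ : Chart M) (z : E2) : E2 →L[ℝ] E2 := mfderiv I2 I2 φ.symm z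

/-- The pulled back inner product. -/
def pull [InnerProductSpace ℝ V] (F : M → V) (p : M) : Bil :=
  (innerSL ℝ : V →L[ℝ] V →L[ℝ] ℝ).bilinearComp (dM F p) (dM F p)

/-- A tensor field read in a chart. -/
def trep (φ : Chart M) (T : M → Bil) (z : E2) : Bil :=
  (T (φ.symm z)).bilinearComp (dS φ z) (dS φ z)

/-- Smooth tensor fields. -/
def SmT (T : M → Bil) : Prop := ∀ φ : Chart M, IsCh φ → ContDiffOn ℝ ∞ (trep φ T) φ.target

def SymT (T : M → Bil) : Prop := ∀ p v w, T p v w = T p w v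

def IsMetric (g : M → Bil) : Prop := SmT g ∧ SymT g ∧ ∀ p v, v ≠ 0 → 0 < g p v v

open Classical in
/-- A function on the plane moved to `M` by a chart, zero off the chart. -/
def push (φ : Chart M) (U : E2 → V) (p : M) : V := if p ∈ φ.source then U (φ p) else 0

open Classical in
/-- A tensor field on the plane moved to `M` by a chart, zero off the chart. -/
def pushT (φ : Chart M) (T : E2 → Bil) (p : M) : Bil :=
  if p ∈ φ.source then (T (φ p)).bilinearComp (dM φ p) (dM φ p) else 0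

/-- Families with `|D^j| ≤ C lam^j` in every chart. -/
def Bd [NormedSpace ℝ V] {ι : Type} (l : Filter ι) (lam : ι → ℝ) (u : ι → M → V) : Prop :=
  ∀ φ : Chart M, IsCh φ → ∀ K ⊆ φ.target, IsCompact K → ∀ j : ℕ, ∃ C : ℝ, ∀ᶠ i in l, ∀ z ∈ K,
    ‖iteratedFDeriv ℝ j (u i ∘ φ.symm) z‖ ≤ C * lam i ^ j

def BdT {ι : Type} (l : Filter ι) (lam : ι → ℝ) (T : ι → M → Bil) : Prop :=
  ∀ φ : Chart M, IsCh φ → ∀ K ⊆ φ.target, IsCompact K → ∀ j : ℕ, ∃ C : ℝ, ∀ᶠ i in l, ∀ z ∈ K,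
    ‖iteratedFDeriv ℝ j (trep φ (T i)) z‖ ≤ C * lam i ^ j

/-- `F' i - F i` tends to zero in `C^2`. -/
def Close2 {ι : Type} (l : Filter ι) (F F' : ι → M → E4) : Prop :=
  ∀ φ : Chart M, IsCh φ → ∀ K ⊆ φ.target, IsCompact K → ∀ ε : ℝ, 0 < ε → ∀ᶠ i in l, ∀ z ∈ K,
    ∀ j ≤ 2, ‖iteratedFDeriv ℝ j ((F' i - F i) ∘ φ.symm) z‖ ≤ ε

/-- Immersion whose second fundamental form vanishes nowhere. -/
def Good1 (F : M → E4) : Prop :=
  ∀ φ : Chart M, IsCh φ → ∀ z ∈ φ.target, ∃ v : E2,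
    Ind (fderiv ℝ (F ∘ φ.symm) z) (D2 (F ∘ φ.symm) z v)

/-- On `S`, `II(v,v) ≠ 0` for every nonzero `v` in the kernel of `dh`. -/
def Good2 (F : M → E4) (h : M → ℝ) (S : Set M) : Prop :=
  ∀ φ : Chart M, IsCh φ → ∀ z ∈ φ.target, φ.symm z ∈ S → ∀ v : E2, v ≠ 0 →
    fderiv ℝ (h ∘ φ.symm) z v = 0 → Ind (fderiv ℝ (F ∘ φ.symm) z) (D2 (F ∘ φ.symm) z v)

/-- Uniform `Good1` along a filter. -/
def UG1 {ι : Type} (l : Filter ι) (F : ι → M → E4) : Prop :=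
  ∀ φ : Chart M, IsCh φ → ∀ K ⊆ φ.target, IsCompact K → ∃ κ : ℝ, 0 < κ ∧ ∀ᶠ i in l, ∀ z ∈ K,
    ∃ v : E2, ‖v‖ = 1 ∧ IndQ κ (fderiv ℝ (F i ∘ φ.symm) z) (D2 (F i ∘ φ.symm) z v)

/-- Uniform `Good2` along a filter. -/
def UG2 {ι : Type} (l : Filter ι) (F : ι → M → E4) (h : M → ℝ) (S : Set M) : Prop :=
  ∀ φ : Chart M, IsCh φ → ∀ K ⊆ φ.target, IsCompact K → ∃ κ : ℝ, 0 < κ ∧ ∀ᶠ i in l, ∀ z ∈ K,
    φ.symm z ∈ S → ∀ v : E2, ‖v‖ = 1 → fderiv ℝ (h ∘ φ.symm) z v = 0 →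
      IndQ κ (fderiv ℝ (F i ∘ φ.symm) z) (D2 (F i ∘ φ.symm) z v)

end Mfd

end Vale.Agent.P205
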